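import Vale.Agent.P216.B64.Goals
import Vale.Agent.P216.H994.T2
import Vale.Agent.P216.H828C.Contract2

/-!
# Theorem C of P216 (`S³`): the goals of the groups and the skeleton of the main theorem
-/

open Set Topology Bundle Manifold
open scoped ContDiff
open Vale.Agent.P216.H494

namespace Vale.Agent.P216.S376

open B64

/-- **[BFB2]** the stable cohomology of the free loops in characteristic `2`. -/
def XGoal2 : Prop := ∀ (M : Type) [MetricSpace M] [CompactSpace M] (ρ : ℝ),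
  0 < ρ → LS.UniqSeg M ρ → Nonempty (M ≃ₜ Sph 3) → ∃ B : ℝ, 0 < B ∧
  Nonempty (H828C.XOut2 M B (ZMod 2))

/-- **[INST]** the system `T2Sys` at `p = 2`. -/
def TGoal : Prop := ∀ (M : Type) [MetricSpace M] [CompactSpace M] (ρ : ℝ), 0 < ρ →
  LS.UniqSeg M ρ → GM.LOC M → Nonempty (M ≃ₜ Sph 3) → ∀ G : GeoList M, ∀ B : ℝ, 0 < B →
  Nonempty (H828C.XOut2 M B (ZMod 2)) →
  ∃ (K : ℕ) (B0 B1 : ℝ), Nonempty (H994.T2Sys (ZMod 2) 2 (AS.Crit G.ℓ) K B0 B1)

/-- The skeleton of the main theorem for the 3-sphere. -/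
theorem main_of (hX : XGoal2) (hT : TGoal)
    {E : Type} [NormedAddCommGroup E] [NormedSpace ℝ E] [FiniteDimensional ℝ E]
    {M : Type} [MetricSpace M] [CompactSpace M] [ChartedSpace E M] [IsManifold 𝓘(ℝ, E) ∞ M]
    [RiemannianBundle (fun x : M => TangentSpace 𝓘(ℝ, E) x)]
    [IsContMDiffRiemannianBundle 𝓘(ℝ, E) ∞ E (fun x : M => TangentSpace 𝓘(ℝ, E) x)]
    [IsRiemannianManifold 𝓘(ℝ, E) M] (e : M ≃ₜ Sph 3) :
    (primeClosedGeodesicImages M).Infinite := by
  intro hfin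
  obtain ⟨ρ, hρ, hs, _⟩ := Geo.exists_uniqSeg E M
  obtain ⟨G⟩ := exists_geoList (nonBranching_of_riemannian (E := E) (M := M)) hfin
  have : PreconnectedSpace M := by
    have : PreconnectedSpace (Sph 3) := by
      have h : IsPreconnected (Metric.sphere (0 : EuclideanSpace ℝ (Fin (3 + 1))) 1) :=
        isPreconnected_sphere (by
          rw [← Module.finrank_eq_rank, finrank_euclideanSpace, Fintype.card_fin]
          exact_mod_cast (by omega : 1 < 3 + 1)) _ _
      exact isPreconnected_iff_preconnectedSpace.1 h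
    exact e.symm.surjective.denseRange.preconnectedSpace e.symm.continuous
  have hLOC : GM.LOC M := H319.loc (E := E) hρ hs (H844.f4_M E M)
  obtain ⟨B, hB, hX'⟩ := hX M ρ hρ hs ⟨e⟩
  obtain ⟨K, B0, B1, ⟨T⟩⟩ := hT M ρ hρ hs hLOC ⟨e⟩ G B hB hX'
  have := G.fin
  exact H994.t2Goal G.ℓ G.ℓ_pos (ZMod 2) 2 le_rfl K B0 B1 T

end Vale.Agent.P216.S376
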