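import Vale.Agent.P216.Q633.Sys2
import Vale.Agent.P216.H828C.Out2

/-!
# Theorem C of P216: assembly of `T2Sys` from the level-wise system `TSys2` and the blocks

`Blocks S K B` = everything which is still needed for `S : TSys2 (ZMod 2) 2 crit` whose groups `H`
are the cohomology of the sublevels of the loop space (`Φ : HIso M S.TH S.θ`).
-/

open Module LinearMap

namespace Vale.Agent.P216.S376

open Vale.Agent.P216.AS (USeq Crit)
open Vale.Agent.P216.T695 Vale.Agent.P216.H994 Vale.Agent.P216.Q633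
open Vale.Agent.P216.B633 (Tower RegCof)
open Vale.Agent.P216.H828C

/-- What is needed beyond `TSys2`, `HIso` and `XOut2`. -/
structure Blocks {crit : Set ℝ} (S : TSys2 (ZMod 2) 2 crit) (K : ℕ) (B : ℝ) where
  /-- [LIFT] the even global classes lift -/
  lift : ∀ n, n % 2 = 0 → Function.Surjective (S.πi n)
  /-- [FIN] -/
  topH : ∀ t, 0 < t → t ∉ crit → ∃ N, ∀ n ≥ N, Subsingleton (S.H t n)
  /-- [FIN] bars, in the form of `bars_of_levelBoundK` -/
  bars : ∀ t, 0 < t → t ∉ crit → ∀ m, ∀ T (h : t ≤ T), t + B ≤ T →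
    ∑ i ∈ Finset.range m, (finrank (ZMod 2) (S.H t i) -
      finrank (ZMod 2) (LinearMap.range ((S.TH i).ρ t T h))) ≤ K
  /-- [REG] -/
  reg : ∀ s t (h : s ≤ t), 0 < s → (∀ x ∈ Set.Icc s t, x ∉ crit) →
    ∀ n, Function.Bijective ((S.TH n).ρ s t h)
  /-- [REL2] + [E] -/
  rel : ∀ s t (h : Adm crit s t),
    Rel2 (ZMod 2) (S.G t) (S.G s) (fun n => (S.TH n).ρ s t h.le) (fun n => (S.TF n).ρ s t h.le)
      (S.θ t) (S.θ s)
  /-- [LOC] + [E] -/
  loc : ∀ s t (h : Adm crit s t) (h' : Adm crit (s / (2 : ℕ)) (t / (2 : ℕ))),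
    Nonempty (Loc2 (rel s t h) (rel (s / (2 : ℕ)) (t / (2 : ℕ)) h') (S.L t h.pos' h.ht))
  /-- [D2] -/
  d2 : ∀ i s t (h : Adm crit s t) (ω : S.H s (2 * i + 3)) (g : (rel s t h).N (2 * i + 3 + 1)),
    (rel s t h).jH (2 * i + 3 + 1) g ∈ LinearMap.range (S.rH t (2 * i + 3 + 1)) →
    (rel s t h).δH (2 * i + 3) ω = g + (rel s t h).θN (2 * i + 3 + 1) g →
    ∃ ω' : S.H t (2 * i + 3), (S.TH (2 * i + 3)).ρ s t h.le (ω' + S.θ t (2 * i + 3) ω') =
      ω + S.θ s (2 * i + 3) ω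

/-- **Assembly of `T2Sys`.** -/
theorem t2sys_of {M : Type} [MetricSpace M] {crit : Set ℝ} (S : TSys2 (ZMod 2) 2 crit) {K : ℕ}
    {B : ℝ} (hB : 0 < B) (D : Blocks S K B) (Φ : HIso M S.TH S.θ) (X : XOut2 M B (ZMod 2))
    {a : ℕ → ℝ} (ha : RegCof crit a) : Nonempty (T2Sys (ZMod 2) 2 crit K B B) :=
  ⟨S.toT2Sys two_pos ha (K := K)
    { two := by decide
      lift := D.lift
      topH := D.topH
      bars := fun t h0 ht m => Φ.bars X hB D.bars t h0 ht m
      reg := D.reg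
      θ_r := fun t n x => Φ.rE_ev X hB zmod_two t n x
      rel := D.rel
      loc := D.loc }
    { f := fun i => 2 * i + 3
      f_mono := HIso.fy_mono
      f_odd := fun i => by omega
      y := fun i => Φ.yh X i
      d2 := D.d2
      birth0 := fun t ht _ _ => Φ.birth0_y X t ht
      birth := fun i s t hs _ _ hst h => Φ.birth_y X i s t hs hst h }⟩

end Vale.Agent.P216.S376
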