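import Vale.Agent.P216.H269.KOfG
import Vale.Agent.P216.H311.Gom2
import Vale.Agent.P216.H779C.Gom1
import Vale.Agent.P216.H126L.Lip
import Vale.Agent.P216.H126L.Grp
import Vale.Agent.P216.B64.Goals

/-!
# Theorem C of P216: the map `M → S³` and the properties (G1), (G2), (G3)
-/

open Set BoundedContinuousFunction

namespace Vale.Agent.P216.S376

open AS B64 GM L250 Q633 H269

theorem dist_sphG3 (x y : Metric.sphere (0 : EuclideanSpace ℝ (Fin 4)) 1) :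
    dist (H126L.sphG3 x) (H126L.sphG3 y) = dist x y :=
  Quaternion.linearIsometryEquivTuple.symm.isometry.dist_eq _ _

/-- A homeomorphism onto the unit quaternions which maps `x₀` to `1`. -/
theorem exists_homeo_quat {M : Type} [MetricSpace M] (e : M ≃ₜ Sph 3) (x₀ : M) :
    ∃ h : M ≃ₜ S3, h x₀ = 1 := by
  let h0 : M ≃ₜ S3 := e.trans H126L.sphG3
  refine ⟨h0.trans (Homeomorph.mulLeft (h0 x₀)⁻¹), ?_⟩
  change (h0 x₀)⁻¹ * h0 x₀ = 1
  exact inv_mul_cancel _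

/-- **The Lipschitz map to the unit quaternions with (G1), (G2), (G3).** -/
theorem exists_gom {M : Type} [MetricSpace M] [CompactSpace M] {ρ : ℝ} (hρ : 0 < ρ)
    (hU : LS.UniqSeg M ρ) (e : M ≃ₜ Sph 3) (x₀ : M) {k : Type} [Field k] {B : ℝ} (hB : 0 ≤ B)
    (O : OmegaOut M 2 x₀ B k) : ∃ (f : C(M, S3)) (K : ℝ) (hK : 0 < K)
      (hf : ∀ x y, dist (f x) (f y) ≤ K * dist x y), G1P k ∧ G2P hK.le hf O ∧
        G3P hK.le hf x₀ k := by
  obtain ⟨h, hx⟩ := exists_homeo_quat e x₀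
  obtain ⟨ε₀, hε₀, g0⟩ := H779C.gom0 hρ hU h hx
  obtain ⟨ε₁, hε₁, g1⟩ := H779C.gom1 hρ hU h hx
  obtain ⟨ε₂, hε₂, g2⟩ := H311.gom2 hρ hU h hx
  have hε : 0 < min ε₀ (min ε₁ ε₂) := lt_min hε₀ (lt_min hε₁ hε₂)
  let φ : C(M, Metric.sphere (0 : EuclideanSpace ℝ (Fin 4)) 1) :=
    ⟨fun x => H126L.sphG3.symm (h x), H126L.sphG3.symm.continuous.comp h.continuous⟩
  obtain ⟨g, K', hg, hgφ⟩ := H126L.exists_lip φ hε
  let f : C(M, S3) := ⟨fun x => H126L.sphG3 (g x), H126L.sphG3.continuous.comp g.continuous⟩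
  have hK : (0 : ℝ) < K' + 1 := by positivity
  have hf : ∀ x y, dist (f x) (f y) ≤ ((K' : ℝ) + 1) * dist x y := by
    intro x y
    refine (dist_sphG3 _ _).le.trans ((hg.dist_le_mul x y).trans ?_)
    exact mul_le_mul_of_nonneg_right (by linarith) dist_nonneg
  have hfh : ∀ x, dist (f x) (h x) ≤ min ε₀ (min ε₁ ε₂) := by
    intro x
    refine le_trans (le_of_eq ?_) (hgφ x)
    have h1 := dist_sphG3 (g x) (φ x)
    have h2 : H126L.sphG3 (φ x) = h x := H126L.sphG3.apply_symm_apply _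
    rw [h2] at h1
    exact h1
  have c0 : ∀ x, dist (f x) (h x) ≤ ε₀ := fun x => (hfh x).trans (min_le_left _ _)
  have c1 : ∀ x, dist (f x) (h x) ≤ ε₁ :=
    fun x => (hfh x).trans ((min_le_right _ _).trans (min_le_left _ _))
  have c2 : ∀ x, dist (f x) (h x) ≤ ε₂ :=
    fun x => (hfh x).trans ((min_le_right _ _).trans (min_le_right _ _))
  refine ⟨f, (K' : ℝ) + 1, hK, hf, ?_, ?_, ?_⟩
  · intro s
    obtain ⟨s', h1⟩ := g1 f _ hK.le hf c1 k hB O s
    obtain ⟨hs, h2⟩ := h1 s' le_rfl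
    exact ⟨s', hs, fun q hq z => h2 q (by omega) z⟩
  · intro j s hs hj hgM
    exact g2 f _ hK.le hf c2 k hB O j s hs hj hgM
  · intro s
    obtain ⟨T, s', hT, h1⟩ := g0 f _ hK.le hf c0 s
    obtain ⟨hs, hKT, h2⟩ := h1 s' le_rfl
    refine ⟨s', hs, T, hT, hKT, fun hgM q z hz => ?_⟩
    obtain ⟨α, hα⟩ := h2 k q
    rw [← hα z]
    have hz' : hpull k (H779C.umap_gM hT) q (hpull k (umap_qm hK.le hf T) q
        (hres k (Y_mono hKT) q z)) = 0 := hz
    rw [hz', map_zero]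

end Vale.Agent.P216.S376
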