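import Vale.Agent.P216.S376.EPack
import Vale.Agent.P216.S376.Asm
import Vale.Agent.P216.S376.Skel
import Vale.Agent.P216.S376.Gom
import Vale.Agent.P216.H651.TwoBase
import Vale.Agent.P216.H467E.TwoInst
import Vale.Agent.P216.H773.SheetTriv
import Vale.Agent.P216.DV706.PInst
import Vale.Agent.P216.Q633.LiftEnd
import Vale.Agent.P216.H799.Main3

/-!
# Theorem C of P216: the instance of `T2Sys` for a manifold homeomorphic to the 3-sphere

`EGoal` = the block [E], `D2Goal` = the block [D2]; `tGoal_of : EGoal → D2Goal → TGoal`.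
-/

open Set Topology
open Module (finrank)
open Vale.Agent.P216.H288 Vale.Agent.P216.H494 Vale.Agent.P216.L250

namespace Vale.Agent.P216.S376

open AS GM B64 B633 S4 DV706 H994 Q633 H828C H269

/-- characteristic two -/
theorem two0 : (2 : ZMod 2) = 0 := by decide

/-- the group `Z/4` over `F_2` -/
theorem ord2 : Ord (ZMod 2) 4 := ord_four two0

/-- **[E]** -/
def EGoal : Prop := ∀ {Λ : Type} [MetricSpace Λ] (S : GSys Λ) (R : RotS S) (W : S.Two),
  Nonempty (RotS.EPack R W (ZMod 2) ord2)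

/-- **[D2]** in the frame of the `GSys`. -/
def D2Goal : Prop := ∀ (M : Type) [MetricSpace M] [CompactSpace M] (G : GeoList M)
  (hD : DescentStmt (Hol.triv : Hol M) G) (B : ℝ), 0 < B → ∀ (_ : XOut2 M B (ZMod 2)) (x₀ : M)
  (B' : ℝ) (O : OmegaOut M 2 x₀ B' (ZMod 2)) (f : C(M, S3)) (K : ℝ) (hK : 0 < K)
  (hf : ∀ x y, dist (f x) (f y) ≤ K * dist x y), G1P (ZMod 2) → G2P hK.le hf O →
  G3P hK.le hf x₀ (ZMod 2) → ∀ (hp : 0 < 4) (i : ℕ) (s t : ℝ) (h : s ≤ t)
  (ω : ((S0 G hD).P (ZMod 2) 4 hp s).HH (2 * i + 3))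
  (g : ((S0 G hD).Q (ZMod 2) 4 hp h).HH (2 * i + 3 + 1)),
  (S0 G hD).relJ (ZMod 2) 4 hp h (2 * i + 3 + 1) g ∈
    LinearMap.range ((RotS.TH (S0 G hD) (ZMod 2) (2 * i + 3 + 1)).ev t) →
  (S0 G hD).relDel (ZMod 2) 4 hp h (2 * i + 3) ω =
    g + (S0 G hD).relTh (ZMod 2) 4 hp h (2 * i + 3 + 1) g →
  ∃ ω' : ((S0 G hD).P (ZMod 2) 4 hp t).HH (2 * i + 3),
    (S0 G hD).relRes (ZMod 2) 4 hp h (2 * i + 3)
      (ω' + (S0 G hD).absTh (ZMod 2) 4 hp t (2 * i + 3) ω') =
    ω + (S0 G hD).absTh (ZMod 2) 4 hp s (2 * i + 3) ω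

section

variable {M : Type} [MetricSpace M] [CompactSpace M] (G : GeoList M)
  (hD : DescentStmt (Hol.triv : Hol M) G)

/-- the cohomology of the level-wise system is the cohomology of the loop space -/
noncomputable def hiso : HIso M (RotS.TH (S0 G hD) (ZMod 2))
    (fun t n => (S0 G hD).absTh (ZMod 2) 4 ord2.pos t n) where
  φ t q := B609.phi G hD (ZMod 2) t q
  nat q _ _ h x := B609.phi_res G hD h q x
  rev t q x := B609.phi_rH G hD ord2.pos t q x

end

/-- **[INST].** -/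
theorem tGoal_of (hE : EGoal) (hD2 : D2Goal) : TGoal := by
  intro M _ _ ρ hρ hU hLOC he G B hB ⟨X⟩
  obtain ⟨e⟩ := he
  have hD := descentStmt (Hol.triv : Hol M) G hρ hU
  let S := S0 G hD
  let R := R0 G hD
  let W : S.Two := H467E.two0 G hD hρ hU
  have hsh : S.Sheet := H773.sheet_triv G hD
  -- finiteness
  have hL : S.LevelBoundK (ZMod 2) := GM.levelBoundK (ZMod 2) (GM.f1 hρ hU) hLOC GM.tw Hol.triv G hD
  have h0 : S.BaseFinK (ZMod 2) := H651.baseFinK (ZMod 2) G hD e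
  have hf : RotS.FinAt S (ZMod 2) := H651.finAtK (ZMod 2) hL h0
  -- the isomorphism with the loop space
  let Φ := hiso G hD
  have hst : S.StableBarsK (ZMod 2) B := fun s t hs h h' n => Φ.stable X hB hs.le h (h.trans h') n
  obtain ⟨K, hK⟩ := GSys.bars_of_levelBoundK hL hB.le hst h0
  obtain ⟨a, ha⟩ := exists_regCof (exists_reg G hD)
  -- the map to the quaternions
  have hne : Nonempty M := by
    have : Nonempty (Sph 3) := (NormedSpace.sphere_nonempty.2 zero_le_one).to_subtype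
    obtain ⟨y⟩ := this
    exact ⟨e.symm y⟩
  obtain ⟨x₀⟩ := hne
  obtain ⟨B', hB', hO⟩ := H799.omega3 M hρ hU ⟨e⟩ x₀
  obtain ⟨O⟩ := hO (ZMod 2)
  obtain ⟨f, K', hK', hf', g1, g2, g3⟩ := exists_gom hρ hU e x₀ hB'.le O
  obtain ⟨E⟩ := hE S R W
  let T := R.tsys2 W hsh (ZMod 2) ord2 hf
  have hlift : ∀ n, n % 2 = 0 → Function.Surjective (T.πi n) := by
    intro n hn
    rcases n with _ | n
    · exact T.surj_πi_zero ha
    · exact fun x => T.mem_range_πi ha fun t => ⟨t, le_rfl,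
        d_ev_eq_zero_of hK' hf' G hD two0 R hB g1 g2 X (by omega) x t⟩
  refine ⟨K, B, B, t2sys_of T hB (K := K) ?_ Φ X ha⟩
  exact
    { lift := hlift
      topH := fun t ht htc => (hf t ht htc).2
      bars := fun t ht htc m T h hT => hK t ht htc T h hT m
      reg := fun s t h hs hc i => S.res_bijective hs h hc (S.mono s t h) i
      rel := fun s t h => E.rel s t h
      loc := fun s t h h' => E.loc hsh hf s t h h'
      d2 := fun i s t h ω g h1 h2 => hD2 M G hD B hB X x₀ B' O f K' hK' hf' g1 g2 g3 ord2.pos i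
        s t h.le ω g h1 h2 }

end Vale.Agent.P216.S376
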