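import Vale.Agent.P216.S376.Lev
import Vale.Agent.P216.H670.Rel2F

/-!
# Theorem C of P216: the contract of the block [E], and the fields `rel`, `loc`

`EPack R W hm` : the projections `eN`, `eR` at all admissible pairs, compatible with `π`, with the
reversal and with the localisation. From it: `relE` (the field `rel`) and `locE` (the field `loc`).
-/

open Set

namespace Vale.Agent.P216.RotS

open AS B633 DV Circ.PSt S4 Q633 H994

variable {Λ : Type} [MetricSpace Λ] {S : GSys Λ} (R : RotS S) (W : S.Two) (hsh : S.Sheet)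
  (k : Type) [Field k] (hm : Ord k 4)

/-- The localisation `F^e(X_t, X_s) → H^j(X_{t/2}, X_{s/2})`. -/
noncomputable def locQ {s t : ℝ} (h0 : 0 ≤ s) (h : s ≤ t)
    (h' : s / (2 : ℕ) ≤ t / (2 : ℕ)) (e j : ℕ) :
    (R.pstQM k hm h).F e →ₗ[k] (S.Q k 4 hm.pos h').HH j :=
  W.locR hm.two (R.circM_A k hm) (q := s / (2 : ℕ)) (r := t / (2 : ℕ)) (by push_cast; ring)
    (by push_cast; ring) (div_nonneg h0 (by norm_num)) h' h (R.stS4 k hm h) (R.stA4 k hm t)
    (R.pstQM k hm h) e j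

/-- **The contract of the block [E].** -/
structure EPack where
  eN : ∀ s t (h : Adm (Crit S.ℓ) s t) (n : ℕ),
    (S.Q k 4 hm.pos h.le).HH n →ₗ[k] (S.Q k 4 hm.pos h.le).HH n
  eR : ∀ s t (h : Adm (Crit S.ℓ) s t) (n : ℕ),
    (R.pstQM k hm h.le).F n →ₗ[k] (R.pstQM k hm h.le).F n
  e_π : ∀ s t h n x, eN s t h n ((R.pstQM k hm h.le).πF n x) =
    (R.pstQM k hm h.le).πF n (eR s t h n x)
  θ_e : ∀ s t h n x, S.relTh k 4 hm.pos h.le n (eN s t h n x) =
    S.relTh k 4 hm.pos h.le n x - eN s t h n (S.relTh k 4 hm.pos h.le n x)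
  ℓ_e : ∀ s t (h : Adm (Crit S.ℓ) s t) (h' : Adm (Crit S.ℓ) (s / (2 : ℕ)) (t / (2 : ℕ)))
    (n m : ℕ) x, R.locQ W k hm h.pos.le h.le h'.le n m (eR s t h n x) =
      eN (s / (2 : ℕ)) (t / (2 : ℕ)) h' m (R.locQ W k hm h.pos.le h.le h'.le n m x)

variable {R W k hm} (E : EPack R W k hm)

/-- **The field `rel`.** -/
noncomputable def EPack.rel (s t : ℝ) (h : Adm (Crit S.ℓ) s t) :
    Rel2 k (R.gysM k hm t) (R.gysM k hm s) (fun n => S.relRes k 4 hm.pos h.le n)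
      (fun n => R.resFM k hm h.le n) (fun n => S.absTh k 4 hm.pos t n)
      (fun n => S.absTh k 4 hm.pos s n) :=
  R.rel2 k hm h.le hm.two (E.eN s t h) (E.eR s t h) (E.e_π s t h) (E.θ_e s t h)

/-- **The field `loc`.** -/
theorem EPack.loc (hf : FinAt S k) (s t : ℝ) (h : Adm (Crit S.ℓ) s t)
    (h' : Adm (Crit S.ℓ) (s / (2 : ℕ)) (t / (2 : ℕ))) :
    Nonempty (Loc2 (E.rel s t h) (E.rel (s / (2 : ℕ)) (t / (2 : ℕ)) h')
      ((R.tsys2 W hsh k hm hf).L t h.pos' h.ht)) :=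
  ⟨{ ℓR := fun n m => R.locQ W k hm h.pos.le h.le h'.le n m
     ℓ_j := fun n m x => W.locR_j hm.two (R.circM_A k hm) (q := s / (2 : ℕ)) (r := t / (2 : ℕ))
       (by push_cast; ring) (by push_cast; ring) (div_nonneg h.pos.le (by norm_num)) h'.le h.le
       (R.stS4 k hm h.le) (R.stA4 k hm t) (R.pstQM k hm h.le) (R.pstM k hm t)
       (GSys.uTors4 k hm.pos W.rot42 hsh t) (FinAt.div k Nat.prime_two hf h.pos' h.ht).1
       (hf t h.pos' h.ht).2 (FinAt.div k Nat.prime_two hf h.pos' h.ht).2 n m x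
     ℓ_e := E.ℓ_e s t h h' }⟩

end Vale.Agent.P216.RotS
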