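import Vale.Agent.P216.S4.Fix4
import Vale.Agent.P216.H941S.Fix4
import Vale.Agent.P216.H773.Inst4
import Vale.Agent.P216.H651.RelH
import Vale.Agent.P216.Q633.Sys2
import Vale.Agent.P216.DV706.TInst

/-!
# The level-wise system `TSys2` of a `GSys` at `p = 2` (Theorem C, block TSYS2)
-/

open Set

namespace Vale.Agent.P216.RotS

open AS B633 DV Circ.PSt S4 Q633

variable {Λ : Type} [MetricSpace Λ] {S : GSys Λ} (R : RotS S) (W : S.Two) (hsh : S.Sheet)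
  (k : Type) [Field k] (hm : Ord k 4)

theorem stA4 (t : ℝ) : (R.circM k hm).St (GSys.Two.A4 S k t) := (R.tri4 k hm t).hA

theorem stS4 {s t : ℝ} (h : s ≤ t) : (R.circM k hm).St (GSys.Two.S4 S k t s) :=
  (R.tri4Q k hm h).hS

/-- **The field `L`.** -/
noncomputable def L2 {r t : ℝ} (hr : 2 * r = t) (h0 : 0 ≤ r)
    (hfin : ∀ j, Module.Finite k (S.V k r j))
    (htop : ∃ N, ∀ j ≥ N, Subsingleton (S.V k t j))
    (htop' : ∃ N, ∀ j ≥ N, Subsingleton (S.V k r j)) :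
    T695.Loc k (fun n => R.FM k hm t n) (fun j => S.V k r j) (R.gysM k hm t).u :=
  W.loc4 hm.two (R.circM_A k hm) hr h0 (R.pstM k hm t) (R.stA4 k hm t)
    (GSys.uTors4 k hm.pos W.rot42 hsh t) hfin htop htop'

/-- **The field `ℓ_ρ`.** -/
theorem L2_ρ {q r s t : ℝ} (hq : 2 * q = s) (hr : 2 * r = t) (h0 : 0 ≤ q) (h : q ≤ r)
    (h' : s ≤ t) (hfin : ∀ j, Module.Finite k (S.V k r j))
    (htop : ∃ N, ∀ j ≥ N, Subsingleton (S.V k t j))
    (htop' : ∃ N, ∀ j ≥ N, Subsingleton (S.V k r j))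
    (hfins : ∀ j, Module.Finite k (S.V k q j))
    (htops : ∃ N, ∀ j ≥ N, Subsingleton (S.V k s j))
    (htops' : ∃ N, ∀ j ≥ N, Subsingleton (S.V k q j)) (e j : ℕ) (x : R.FM k hm t e) :
    (R.L2 W hsh k hm hq h0 hfins htops htops').ℓ e j ((R.TFM k hm e).ρ s t h' x) =
      (TH S k j).ρ q r h ((R.L2 W hsh k hm hr (h0.trans h) hfin htop htop').ℓ e j x) :=
  W.loc4_res hm.two (R.circM_A k hm) hq hr h0 h h' (R.pstM k hm t) (R.stA4 k hm t)
    (GSys.uTors4 k hm.pos W.rot42 hsh t) (R.pstM k hm s) (R.stA4 k hm s)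
    (GSys.uTors4 k hm.pos W.rot42 hsh s) hfin htop htop' hfins htops htops' e j x

variable (hf : FinAt S k)

/-- **The level-wise system at `p = 2`.** -/
noncomputable def tsys2 : TSys2 k 2 (Crit S.ℓ) where
  H t n := S.V k t n
  F t n := R.FM k hm t n
  TH n := TH S k n
  TF n := R.TFM k hm n
  G t := R.gysM k hm t
  ρ_u := R.ρ_uM k hm
  ρ_π := R.ρ_πM k hm
  ρ_d := R.ρ_dM k hm
  θ t n := S.absTh k 4 hm.pos t n
  θθ t n x := S.absTh_absTh k 4 hm.pos n x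
  θ_ρ n s t h x := S.absTh_relRes k 4 hm.pos h n x
  finH t h0 ht n := (hf t h0 ht).1 n
  L t h0 ht := R.L2 W hsh k hm (r := t / (2 : ℕ)) (by push_cast; ring)
    (div_nonneg h0.le (by norm_num)) (FinAt.div k Nat.prime_two hf h0 ht).1 (hf t h0 ht).2
    (FinAt.div k Nat.prime_two hf h0 ht).2
  ℓ_ρ s t hs0 hs ht0 ht h h' e j x := R.L2_ρ W hsh k hm (q := s / (2 : ℕ)) (r := t / (2 : ℕ))
    (by push_cast; ring) (by push_cast; ring) (div_nonneg hs0.le (by norm_num)) h' h _ _ _ _ _ _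
    e j x

end Vale.Agent.P216.RotS
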