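import Vale.Agent.P216.S376.MainOf
import Vale.Agent.P216.H16E.InterP
import Vale.Agent.P216.H269.D2V

/-!
# Theorem C of P216: every Riemannian metric on a closed manifold homeomorphic to `S³`
-/

open Set Topology Bundle Manifold
open scoped ContDiff

namespace Vale.Agent.P216.S376

open B64 AS H16E

/-- **[E]** -/
theorem eGoal : EGoal := by
  intro Λ _ S R W
  exact ⟨{
    eN := fun s t h n => H16E.eN W (ZMod 2) ord2 h n
    eR := fun s t h n => H16E.eR W R (ZMod 2) ord2 h n
    e_π := fun s t h n x => H16E.e_π W R (ZMod 2) ord2 h n x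
    θ_e := fun s t h n x => H16E.θ_e W (ZMod 2) ord2 h n x
    ℓ_e := fun s t h h' n m x => H16E.ℓ_e_of W R (ZMod 2) ord2
      (fun c hc hc' => exists_inter W (ZMod 2) ord2 _ _ hc' (two_hf c)) h h' n m x }⟩

/-- **[D2]** -/
theorem d2Goal : D2Goal := fun M _ _ G hD _ hB X _ _ _ _ _ hK hf g1 g2 g3 hp i s t h om g h1 h2 =>
  H269.d2_V G hD hp hK hf H828C.zmod_two hB X g1 g2 g3 i s t h om g h1 h2

/-- **Theorem C.** A closed Riemannian manifold homeomorphic to the 3-sphere has infinitely many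
geometrically distinct closed geodesics. -/
theorem main_three
    {E : Type} [NormedAddCommGroup E] [NormedSpace ℝ E] [FiniteDimensional ℝ E]
    {M : Type} [MetricSpace M] [CompactSpace M] [ChartedSpace E M] [IsManifold 𝓘(ℝ, E) ∞ M]
    [RiemannianBundle (fun x : M => TangentSpace 𝓘(ℝ, E) x)]
    [IsContMDiffRiemannianBundle 𝓘(ℝ, E) ∞ E (fun x : M => TangentSpace 𝓘(ℝ, E) x)]
    [IsRiemannianManifold 𝓘(ℝ, E) M]
    (e : M ≃ₜ Metric.sphere (0 : EuclideanSpace ℝ (Fin 4)) 1) :
    (primeClosedGeodesicImages M).Infinite :=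
  main_three_of eGoal d2Goal (E := E) e

end Vale.Agent.P216.S376
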