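import Vale.Agent.P216.S376.Inst
import Vale.Agent.P216.H779C.GomM

/-!
# Theorem C of P216: the main theorem for the 3-sphere from the blocks [E] and [D2]
-/

open Set Topology Bundle Manifold
open scoped ContDiff

namespace Vale.Agent.P216.S376

open B64

/-- **[BFB2]** -/
theorem xGoal2 : XGoal2 := by
  intro M _ _ ρ hρ hU he
  obtain ⟨B, hB, h⟩ := H779C.exists_xOut2M M hρ hU he
  exact ⟨B, hB, h (ZMod 2)⟩

/-- The main theorem for the 3-sphere, from [E] and [D2]. -/
theorem main_three_of (hE : EGoal) (hD2 : D2Goal)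
    {E : Type} [NormedAddCommGroup E] [NormedSpace ℝ E] [FiniteDimensional ℝ E]
    {M : Type} [MetricSpace M] [CompactSpace M] [ChartedSpace E M] [IsManifold 𝓘(ℝ, E) ∞ M]
    [RiemannianBundle (fun x : M => TangentSpace 𝓘(ℝ, E) x)]
    [IsContMDiffRiemannianBundle 𝓘(ℝ, E) ∞ E (fun x : M => TangentSpace 𝓘(ℝ, E) x)]
    [IsRiemannianManifold 𝓘(ℝ, E) M] (e : M ≃ₜ Sph 3) :
    (primeClosedGeodesicImages M).Infinite :=
  main_of xGoal2 (tGoal_of hE hD2) (E := E) e

end Vale.Agent.P216.S376
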